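import Vale.Agent.P281.H283.KD.MkE

/-! P281, theorem KD, block MK (`MassPartK`). -/

open scoped Manifold ContDiff Topology ComplexOrder
open Set Filter Vale.Agent.P272.K Vale.Agent.P272.K.AMP Vale.Agent.P299
open Vale.Agent.P299.H882
open Vale.Agent.P272.K.INT (intX IsClosedForm)

set_option linter.all false

noncomputable section

namespace Vale.Agent.P281.H283.KD

open Vale.Agent.P281.H167.GM Vale.Agent.P281.H283.GME Vale.Agent.P281.H713.KD

section

variable {n M : ℕ} {X : Type} [TopologicalSpace X] [ChartedSpace (Cm n) X]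
  [IsManifold 𝓘(ℂ, Cm n) ω X] [T2Space X] [CompactSpace X]

/-- statements 1 and 2 from the main estimate -/
lemma small_le {G : D.FormM n X} (hG : IsKahler G) {g : D.FormM n X} (hg : IsKahler g)
    {s : X → ℝ} (hs : SmoothFn (n := n) s) (hs0 : ∀ x, 0 ≤ s x) {δ : ℝ} (hδ : 0 < δ)
    (hδ1 : δ < 1) {Λ : ℝ} (hΛ0 : 0 ≤ Λ) (hΛ : ∀ x, Real.log (s x + δ) ≤ Λ) {K κ : ℝ}
    (hK : J g (fun x => (Λ + 1 - Real.log (s x + δ)) * trX g G x) ≤ K)
    (hκ : (Real.sqrt δ + 2 / Real.log (1 / δ)) * K ≤ κ) :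
    J g (fun x => δ / (s x + δ) * trX g G x) ≤ κ := by
  have hgH := hg.toIsHermitian
  have hr : ∀ x, 0 < s x + δ := fun x => by have := hs0 x; linarith
  have cs : Continuous s := sm_continuous hs
  have cv : Continuous fun x => Real.log (s x + δ) :=
    (cs.add continuous_const).log fun x => (hr x).ne'
  have ctr : Continuous (trX g G) :=
    sm_continuous (smoothFn_trX hgH hG.toIsHermitian.isForm hG.smooth)
  set ε : ℝ := Real.sqrt δ + 2 / Real.log (1 / δ) with hε
  have hε0 : 0 ≤ ε := by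
    have hL : 0 < Real.log (1 / δ) := Real.log_pos (by rw [lt_div_iff₀ hδ]; linarith)
    positivity
  have hfin : J g (fun x => δ / (s x + δ) * trX g G x) ≤
      ε * J g (fun x => (Λ + 1 - Real.log (s x + δ)) * trX g G x) := by
    rw [← J_const_mul]
    refine J_mono hgH ((continuous_const.div (cs.add continuous_const) fun x => (hr x).ne').mul ctr)
      (continuous_const.mul ((continuous_const.sub cv).mul ctr)) fun x => ?_
    rw [← mul_assoc]
    refine mul_le_mul_of_nonneg_right ?_ (tr_nonneg hG hg x)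
    exact eta_le hδ hδ1 (by have := hs0 x; linarith) (by linarith) (by have := hΛ x; linarith)
  exact hfin.trans ((mul_le_mul_of_nonneg_left hK hε0).trans hκ)

end

/-- **Block MK** -/
theorem massPartK (c0 : C0Part) (int : IntPart) (log : LogPart) (bd : BdPart) : MassPartK := by
  intro n M X _ _ _ _ _ _ G hG φ hφ m hm ρ hρ hρ0 hρne Dv r R hbd dl hdl C hcurv h hh hhne C' κ hκ
  obtain ⟨x₁, hx₁⟩ := hρne
  obtain ⟨xh, hxh⟩ := hhne
  haveI : Nonempty X := ⟨x₁⟩
  have hGH := hG.toIsHermitian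
  have hm' : (0 : ℝ) < m := Nat.cast_pos.2 hm
  obtain ⟨hrs, ⟨Cb, hCb0, hCb⟩, hdb⟩ := bd n M X G hG Dv r R hbd
  obtain ⟨hhs, Ch, hCh0, hCh⟩ := hdb h hh
  have hr0 : ∀ i x, 0 ≤ r i x := bd_nonneg hbd
  have hr1 : ∀ i x, r i x ≤ 1 := hbd.le_one
  have hh0 : ∀ x, 0 ≤ h x := holNorm_nonneg hh
  have hdl0 : ∀ i, 0 ≤ dl i := fun i => (hdl i).1
  have hBd : ∀ i, BdI G (R i) (r i) Cb := fun i =>
    { nonneg := hr0 i
      smooth := hrs i
      closed := hbd.closed i
      pos := hCb0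
      dF_low := fun ε hε hε1 e x hx => ((hCb i e x hx).2.2 ε hε hε1).1
      dF_up := fun ε hε hε1 e x hx => ((hCb i e x hx).2.2 ε hε hε1).2.1 }
  have hRlow : ∀ i e x, At e x → ((Cb : ℂ) • G e (e x) - R i e (e x)).PosSemidef :=
    fun i e x hx => (hCb i e x hx).1
  -- bounds of the canonical metric
  have hθ : IsClosedForm (fun (e : Chart n X) z => cHess (φ e) z) := INT.isClosedForm_canonical hφ
  obtain ⟨A, hA0, hA, -⟩ := H738.exists_two_sided hGH hθ.smooth (fun e x hx =>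
    C2.cHess_isHermitian ((hφ.smooth e x hx).of_le (by norm_cast))) hθ.form
  -- exponents
  obtain ⟨dm, hdm0, hdm1, hdm⟩ : ∃ dm : ℝ, 0 ≤ dm ∧ dm < 1 ∧ ∀ i, dl i ≤ dm := by
    rcases isEmpty_or_nonempty (Fin M) with hM | hM
    · exact ⟨0, le_rfl, one_pos, fun i => (hM.false i).elim⟩
    · obtain ⟨i₀, hi₀⟩ := Finite.exists_max dl
      exact ⟨dl i₀, (hdl i₀).1, (hdl i₀).2, hi₀⟩
  set a : ℝ := 2 / (1 + dm) with ha
  have ha1 : 1 < a := by rw [ha, lt_div_iff₀ (by linarith)]; linarith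
  set a' : ℝ := a * dm with ha'
  have ha'1 : a' < 1 := by
    rw [ha', ha, div_mul_eq_mul_div, div_lt_one (by linarith)]
    linarith
  have haa : ∀ i, a * dl i ≤ a' := fun i => mul_le_mul_of_nonneg_left (hdm i) (by linarith)
  obtain ⟨Kint, hKint⟩ := int n M X G hG Dv r R hbd a' ha'1
  -- normalization
  obtain ⟨E0, hE0, hE0'⟩ := exists_E0 hG hφ hm hρ hρ0 hx₁ hdl0 hrs hr0 hr1
  obtain ⟨B, hB⟩ := exists_B hG hφ m hρ hρ0 hdl0 hrs hr0 hr1 ha1 ha'1 haa hKint hE0
  obtain ⟨C0', hC0'⟩ := c0 n X G hG a B ha1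
  set C0 : ℝ := max C0' 0 with hC0
  have hC00 : 0 ≤ C0 := le_max_right _ _
  -- `ρ`
  have cρ : Continuous ρ := sm_continuous hρ
  obtain ⟨xm, -, hxm⟩ := isCompact_univ.exists_isMaxOn univ_nonempty cρ.continuousOn
  have hρR : ∀ x, ρ x ≤ ρ xm := fun x => hxm (mem_univ x)
  set Λρ : ℝ := |Real.log (ρ xm + 1)| + |Real.log (ρ x₁)| with hΛρ
  have hΛρ0 : 0 ≤ Λρ := by positivity
  have hΛρ1 : ∀ δ : ℝ, 0 < δ → δ ≤ 1 → ∀ x, Real.log (ρ x + δ) ≤ Λρ := fun δ hδ hδ1 x => by
    have h1 : Real.log (ρ x + δ) ≤ Real.log (ρ xm + 1) :=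
      Real.log_le_log (by have := hρ0 x; linarith) (by have := hρR x; linarith)
    have h2 := le_abs_self (Real.log (ρ xm + 1))
    have h3 := abs_nonneg (Real.log (ρ x₁))
    linarith
  have hΛρ2 : ∀ δ : ℝ, 0 < δ → -Λρ ≤ Real.log (ρ x₁ + δ) := fun δ hδ => by
    have h1 : Real.log (ρ x₁) ≤ Real.log (ρ x₁ + δ) := Real.log_le_log hx₁ (by linarith)
    have h2 := neg_abs_le (Real.log (ρ x₁))
    have h3 := abs_nonneg (Real.log (ρ xm + 1))
    linarith
  have hC1 : 0 ≤ (m * (|C| + A + ∑ i, dl i * Cb) : ℝ) := by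
    have : 0 ≤ ∑ i, dl i * Cb := Finset.sum_nonneg fun i _ => mul_nonneg (hdl0 i) hCb0
    have := abs_nonneg C
    positivity
  obtain ⟨Kρ, hKρ0, hKρ⟩ := exists_main hG hC1 Λρ ha1 B C0 hC00
  -- `r i`
  choose xr hxr using fun i => bd_exists_pos hbd i x₁
  have hlog2 : 0 < Real.log 2 := Real.log_pos one_lt_two
  set Λr : Fin M → ℝ := fun i => Real.log 2 + |Real.log (r i (xr i))| with hΛr
  have hΛr0 : ∀ i, 0 ≤ Λr i := fun i => by simp only [hΛr]; positivity
  have hΛr1 : ∀ i, ∀ ε : ℝ, 0 < ε → ε ≤ 1 → ∀ x, Real.log (r i x + ε) ≤ Λr i :=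
    fun i ε hε hε1 x => by
      have h1 : Real.log (r i x + ε) ≤ Real.log 2 :=
        Real.log_le_log (by have := hr0 i x; linarith) (by have := hr1 i x; linarith)
      have h3 := abs_nonneg (Real.log (r i (xr i)))
      simp only [hΛr]
      linarith
  have hΛr2 : ∀ i, ∀ ε : ℝ, 0 < ε → -Λr i ≤ Real.log (r i (xr i) + ε) := fun i ε hε => by
    have h1 : Real.log (r i (xr i)) ≤ Real.log (r i (xr i) + ε) :=
      Real.log_le_log (hxr i) (by linarith)
    have h2 := neg_abs_le (Real.log (r i (xr i)))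
    simp only [hΛr]
    linarith
  choose Kr hKr0 hKr using fun i =>
    exists_main hG (C1 := 2 * Cb) (by positivity) (Λr i) ha1 B C0 hC00
  set Ktot : ℝ := Kρ + ∑ i, Kr i with hKtot
  have hKsum : 0 ≤ ∑ i, Kr i := Finset.sum_nonneg fun i _ => hKr0 i
  have hKtot0 : 0 ≤ Ktot := by positivity
  obtain ⟨δ₀, hδ₀, hsm⟩ := exists_small Ktot κ hKtot0 hκ
  -- `h`
  have ch : Continuous h := sm_continuous hhs
  obtain ⟨xM, -, hxM⟩ := isCompact_univ.exists_isMaxOn univ_nonempty ch.continuousOn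
  have hhR : ∀ x, h x ≤ h xM := fun x => hxM (mem_univ x)
  set Λh : ℝ := |Real.log (h xM + 1)| + |Real.log (h xh)| with hΛh
  have hΛh0 : 0 ≤ Λh := by positivity
  have hΛh1 : ∀ b : ℝ, 0 < b → b ≤ 1 → ∀ x, Real.log (h x + b) ≤ Λh := fun b hb hb1 x => by
    have h1 : Real.log (h x + b) ≤ Real.log (h xM + 1) :=
      Real.log_le_log (by have := hh0 x; linarith) (by have := hhR x; linarith)
    have h2 := le_abs_self (Real.log (h xM + 1))
    have h3 := abs_nonneg (Real.log (h xh))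
    linarith
  have hΛh2 : ∀ b : ℝ, 0 < b → -Λh ≤ Real.log (h xh + b) := fun b hb => by
    have h1 : Real.log (h xh) ≤ Real.log (h xh + b) := Real.log_le_log hxh (by linarith)
    have h2 := neg_abs_le (Real.log (h xh))
    have h3 := abs_nonneg (Real.log (h xM + 1))
    linarith
  have hhls : ∀ b : ℝ, 0 < b → SmoothFn (n := n) (fun y => Real.log (h y + b)) := fun b hb =>
    sm_log (sm_add hhs (smoothFn_const b)) fun y => by have := hh0 y; linarith
  obtain ⟨α, hα, KE, hKE⟩ := exists_expint hG Ch Λh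
  have hKL : ∀ b : ℝ, 0 < b → b ≤ 1 → J G (fun x => Λh - Real.log (h x + b)) ≤ α⁻¹ * KE :=
    fun b hb hb1 => J_lin_le hG (hhls b hb) hα (hKE _ (hhls b hb)
      (fun e x hx => hCh b hb hb1 e x hx) (hΛh1 b hb hb1) ⟨xh, hΛh2 b hb⟩)
  set C'' : ℝ := max C' Cb with hC''
  have hC''1 : Cb ≤ C'' := le_max_right _ _
  have hbdry : ∀ i, ∃ K : ℝ, 0 ≤ K ∧ ((∀ x ∈ Dv i, ¬ ∀ᶠ y in 𝓝 x, y ∈ Dv i → h y = 0) →
      ∀ ε b : ℝ, 0 < ε → ε ≤ 1 → 0 < b → b ≤ 1 → ∀ U : X → ℝ,
      SmoothFn (n := n) U → IsKahler (addH G U) → (∀ x y, U x - U y ≤ C0) →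
      J (addH G U) (fun x => (Λh - Real.log (h x + b)) *
        trX (addH G U) (addF (dF (r i) (R i) ε) C'' G) x) ≤ K) := by
    intro i
    by_cases hi : ∀ x ∈ Dv i, ¬ ∀ᶠ y in 𝓝 x, y ∈ Dv i → h y = 0
    · have hc0 : 0 < Real.exp (-Λh) := Real.exp_pos _
      have hc1 : Real.exp (-Λh) ≤ 1 := Real.exp_le_one_iff.2 (by linarith)
      obtain ⟨K2, hK2⟩ := log n M X G hG Dv r R hbd (fun x => Real.exp (-Λh) * h x)
        (continuous_const.mul ch) (holNorm_const_mul hh hc0) ⟨xh, mul_pos hc0 hxh⟩ i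
        (fun x hx hcon => hi x hx (hcon.mono fun y hy hyD => by
          rcases mul_eq_zero.1 (hy hyD) with h1 | h1
          · exact absurd h1 hc0.ne'
          · exact h1))
      have hK2' : ∀ ε b : ℝ, 0 < ε → ε ≤ 1 → 0 < b → b ≤ 1 →
          J G (fun x => (Λh - Real.log (h x + b)) * (ε / (r i x + ε) ^ 2)) ≤ K2 := by
        intro ε b hε hε1 hb hb1
        have h1 := hK2 ε (Real.exp (-Λh) * b) hε hε1 (mul_pos hc0 hb)
          (mul_le_one₀ hc1 hb.le hb1)
        refine le_trans (le_of_eq (J_congr fun x => ?_)) h1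
        have h2 : 0 < h x + b := by have := hh0 x; linarith
        have h3 : Real.log (Real.exp (-Λh) * h x + Real.exp (-Λh) * b) =
            -Λh + Real.log (h x + b) := by
          rw [← mul_add, Real.log_mul hc0.ne' h2.ne', Real.log_exp]
        rw [h3]
        ring
      obtain ⟨K, hK0, hK⟩ := exists_bd hG (hBd i) hhs hh0 hCh0 hCh hΛh1 hKL hK2' hC''1 C0
      exact ⟨K, hK0, fun _ => hK⟩
    · exact ⟨0, le_rfl, fun h => absurd h hi⟩
  choose Kb hKb0 hKb using hbdry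
  set T : ℝ := (∑ i, Kb i) / κ + 1 with hT
  have hKbs : 0 ≤ ∑ i, Kb i := Finset.sum_nonneg fun i _ => hKb0 i
  have hT0 : 0 < T := by positivity
  have hKT : ∀ i, Kb i ≤ κ * T := fun i => by
    have h1 : Kb i ≤ ∑ j, Kb j := Finset.single_le_sum (fun j _ => hKb0 j) (Finset.mem_univ i)
    have h2 : κ * T = (∑ j, Kb j) + κ := by rw [hT]; field_simp
    rw [h2]
    linarith
  set b : ℝ := Real.exp (-T) / 2 with hb
  have hb0 : 0 < b := by positivity
  have hb1 : b ≤ 1 := by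
    have : Real.exp (-T) ≤ 1 := Real.exp_le_one_iff.2 (by linarith)
    rw [hb]; linarith
  have hhb : ∀ x, 0 < h x + b := fun x => by have := hh0 x; linarith
  have clog : Continuous fun x => Real.log (h x + b) :=
    (ch.add continuous_const).log fun x => (hhb x).ne'
  have cβ : Continuous fun x => max 0 (-Real.log (h x + b)) / T :=
    (continuous_const.max clog.neg).div_const T
  refine ⟨b, fun x => max 0 (-Real.log (h x + b)) / T, hb0, cβ,
    fun x => div_nonneg (le_max_left _ _) hT0.le, fun x hx => ?_, δ₀, hδ₀,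
    fun δ ε hδ hδle hε hεle U c hU hg hlog => ?_⟩
  · rw [le_div_iff₀ hT0, one_mul]
    refine le_trans ?_ (le_max_right _ _)
    have h1 : Real.log (h x + b) ≤ -T := by
      rw [← Real.log_exp (-T)]
      refine Real.log_le_log (hhb x) ?_
      have h2 : b + b = Real.exp (-T) := by rw [hb]; ring
      linarith
    linarith
  obtain ⟨hδ1, hδK⟩ := hsm δ hδ hδle
  obtain ⟨hε1, hεK⟩ := hsm ε hε hεle
  set g := addH G U with hgdef
  have hgH := hg.toIsHermitian
  have hf := fK_eq hGH hφ hlog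
  have hfs := smooth_fK hGH hφ m hρ hρ0 hδ dl hrs hr0 hε c
  have hEc := hE0' δ ε hδ hε hε1.le U c hU hg hf
  have hBc := hB δ ε hδ hδ1.le hε hε1.le c hEc
  have hosc : ∀ x y, U x - U y ≤ C0 := fun x y =>
    (hC0' U _ hU hfs hg hf hBc x y).trans (le_max_left _ _)
  have hsmall : ∀ s : ℝ, 0 < s → s < 1 → 0 ≤ Real.sqrt s + 2 / Real.log (1 / s) :=
    fun s hs hs1 => by
      have hL : 0 < Real.log (1 / s) := Real.log_pos (by rw [lt_div_iff₀ hs]; linarith)
      positivity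
  refine ⟨?_, fun i => ?_, fun i hi => ?_⟩
  · have hmain := hKρ U _ (fun x => Real.log (ρ x + δ)) hU hfs
      (sm_log (sm_add hρ (smoothFn_const δ)) fun y => by have := hρ0 y; linarith) hg hf hBc hosc
      (fun e x hx => hess_lowerK hm hφ hρ hρ0 hG hdl0 hcurv hA hRlow hδ hx)
      (hΛρ1 δ hδ hδ1.le) ⟨x₁, hΛρ2 δ hδ⟩
    refine small_le hG hg hρ hρ0 hδ hδ1 hΛρ0 (hΛρ1 δ hδ hδ1.le) hmain (le_trans ?_ hδK)
    exact mul_le_mul_of_nonneg_left (by linarith) (hsmall δ hδ hδ1)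
  · have hmain := hKr i U _ (fun x => Real.log (r i x + ε)) hU hfs ((hBd i).smooth_log hε) hg hf
      hBc hosc
      (fun e x hx => hess_bd_lower (hr0 i) hCb0 hε (hG.posDef e x hx).posSemidef
        (hRlow i e x hx) ((hBd i).dF_low ε hε hε1.le e x hx))
      (hΛr1 i ε hε hε1.le) ⟨xr i, hΛr2 i ε hε⟩
    refine small_le hG hg (hrs i) (hr0 i) hε hε1 (hΛr0 i) (hΛr1 i ε hε hε1.le) hmain
      (le_trans ?_ hεK)
    have h1 : Kr i ≤ ∑ j, Kr j := Finset.single_le_sum (fun j _ => hKr0 j) (Finset.mem_univ i)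
    exact mul_le_mul_of_nonneg_left (by linarith) (hsmall ε hε hε1)
  · have hmain := hKb i hi ε b hε hε1.le hb0 hb1 U hU hg hosc
    have hdFc : IsClosedForm (dF (r i) (R i) ε) := (hBd i).closed_dF hε
    have hΘc : IsClosedForm (addF (dF (r i) (R i) ε) C'' G) :=
      isClosed_addF hdFc (INT.IsKahler.isClosedForm hG) C''
    have c1 : Continuous (trX g (dF (r i) (R i) ε)) :=
      sm_continuous (smoothFn_trX hgH hdFc.form hdFc.smooth)
    have c2 : Continuous (trX g G) :=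
      sm_continuous (smoothFn_trX hgH hG.toIsHermitian.isForm hG.smooth)
    have c3 : Continuous (trX g (addF (dF (r i) (R i) ε) C'' G)) :=
      sm_continuous (smoothFn_trX hgH hΘc.form hΘc.smooth)
    have h1 : J g (fun x => max 0 (-Real.log (h x + b)) / T *
        (trX g (dF (r i) (R i) ε) x + C' * trX g G x)) ≤
        J g (fun x => T⁻¹ * ((Λh - Real.log (h x + b)) *
          trX g (addF (dF (r i) (R i) ε) C'' G) x)) := by
      refine J_mono hgH (cβ.mul (c1.add (continuous_const.mul c2))) (continuous_const.mul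
        ((continuous_const.sub clog).mul c3)) fun x => ?_
      have hx := at_chartAt (n := n) x
      have e1 : trX g (addF (dF (r i) (R i) ε) C'' G) x =
          trX g (dF (r i) (R i) ε) x + C'' * trX g G x := by
        rw [trX_eq hgH hΘc.form hx, trX_eq hgH hdFc.form hx,
          trX_eq hgH hG.toIsHermitian.isForm hx]
        unfold trE addF
        rw [tr_add, tr_smul]
      have e2 : 0 ≤ trX g (addF (dF (r i) (R i) ε) C'' G) x := by
        rw [trX_eq hgH hΘc.form hx]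
        exact (Complex.le_def.1 (C2.trace_mul_nonneg (hg.posDef _ x hx).inv.posSemidef
          ((hBd i).psd hG hC''1 hε hε1.le hx))).1
      have e3 : 0 ≤ trX g G x := tr_nonneg hG hg x
      have e4 : C' * trX g G x ≤ C'' * trX g G x :=
        mul_le_mul_of_nonneg_right (le_max_left _ _) e3
      have e5 : 0 ≤ max 0 (-Real.log (h x + b)) / T := div_nonneg (le_max_left _ _) hT0.le
      have e6 : max 0 (-Real.log (h x + b)) / T ≤ T⁻¹ * (Λh - Real.log (h x + b)) := by
        rw [div_eq_inv_mul]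
        refine mul_le_mul_of_nonneg_left (max_le ?_ ?_) (inv_pos.2 hT0).le
        · have := hΛh1 b hb0 hb1 x; linarith
        · linarith
      calc max 0 (-Real.log (h x + b)) / T * (trX g (dF (r i) (R i) ε) x + C' * trX g G x)
          ≤ max 0 (-Real.log (h x + b)) / T * trX g (addF (dF (r i) (R i) ε) C'' G) x :=
            mul_le_mul_of_nonneg_left (by rw [e1]; linarith) e5
        _ ≤ T⁻¹ * (Λh - Real.log (h x + b)) * trX g (addF (dF (r i) (R i) ε) C'' G) x :=
            mul_le_mul_of_nonneg_right e6 e2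
        _ = _ := by ring
    refine h1.trans ?_
    rw [J_const_mul]
    have h2 := mul_le_mul_of_nonneg_left (hmain.trans (hKT i)) (inv_pos.2 hT0).le
    refine h2.trans (le_of_eq ?_)
    field_simp

end Vale.Agent.P281.H283.KD
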