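import Vale.Agent.P281.H713.KD.Iface
import Vale.Agent.P281.H283.GME
import Vale.Agent.P281.H227.GMC
import Vale.Agent.P281.H564.GMb
import Vale.Agent.P281.H167.GM.Tools

/-! P281, theorem KD, block MK, part A: determinants, traces, and the variation of
`∫ L det (A + t i∂∂̄U)`. -/

open scoped Manifold ContDiff Topology ComplexOrder
open Set Filter Vale.Agent.P272.K Vale.Agent.P272.K.AMP Vale.Agent.P299
open Vale.Agent.P299.H882
open Vale.Agent.P272.K.INT (intX IsClosedForm)

set_option linter.all false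

noncomputable section

namespace Vale.Agent.P281.H283.KD

open Vale.Agent.P281.H167.GM Vale.Agent.P281.H283.GME

section mat

open Matrix

variable {n : ℕ}

lemma one_add_sum_le {ι : Type*} (s : Finset ι) {η : ι → ℝ} (h : ∀ k, 0 ≤ η k) :
    1 + ∑ k ∈ s, η k ≤ ∏ k ∈ s, (1 + η k) := by
  classical
  induction s using Finset.induction_on with
  | empty => simp
  | insert a s ha ih =>
    rw [Finset.sum_insert ha, Finset.prod_insert ha]
    have h1 : 0 ≤ ∑ k ∈ s, η k := Finset.sum_nonneg fun k _ => h k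
    nlinarith [h a, mul_nonneg (h a) h1, mul_le_mul_of_nonneg_left ih (h a)]

/-- `det (w + Θ) ≥ det w (1 + tr (w⁻¹ Θ))` -/
lemma det_add_ge {w Θ : Matrix (Fin n) (Fin n) ℂ} (hw : w.PosDef) (hΘ : Θ.PosSemidef) :
    w.det.re * (1 + (w⁻¹ * Θ).trace.re) ≤ (w + Θ).det.re := by
  obtain ⟨T, U, η, hη, hUT, hTU, h2, hp, -⟩ := exists_pencil_frame hw hΘ
  have e0 := hp 0
  have e1 := hp 1
  simp only [Complex.ofReal_zero, zero_smul, zero_add, zero_mul, add_zero] at e0
  simp only [Complex.ofReal_one, one_smul, one_mul] at e1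
  have ht : (w⁻¹ * Θ).trace.re = ∑ k, η k := by
    have h3 : w⁻¹ = Uᴴ * diagonal (fun k : Fin n => (((1 : ℝ)⁻¹ : ℝ) : ℂ)) * U := by
      rw [e0]
      exact inv_frame hUT hTU (a := fun _ => (1 : ℝ)) fun k => one_pos
    rw [inv_one, diag_one_eq, mul_one] at h3
    have h4 : w⁻¹ * Θ = Uᴴ * (diagonal (fun k => ((η k : ℝ) : ℂ)) * Tᴴ) := by
      rw [h3, h2]
      calc Uᴴ * U * (T * diagonal (fun k => ((η k : ℝ) : ℂ)) * Tᴴ)
          = Uᴴ * (U * T) * (diagonal (fun k => ((η k : ℝ) : ℂ)) * Tᴴ) := by noncomm_ring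
        _ = _ := by rw [hUT, mul_one]
    rw [h4, Matrix.trace_mul_comm, Matrix.mul_assoc, ← conjTranspose_mul, hUT, conjTranspose_one,
      mul_one, Matrix.trace_diagonal, Complex.re_sum]
    exact Finset.sum_congr rfl fun k _ => Complex.ofReal_re _
  rw [add_comm w Θ, e1, det_frame, ht]
  conv_lhs => rw [e0]
  rw [det_frame, Finset.prod_const_one, mul_one]
  refine mul_le_mul_of_nonneg_left ?_ (by positivity)
  exact one_add_sum_le Finset.univ hη

lemma trace_inv_nonneg {w Θ : Matrix (Fin n) (Fin n) ℂ} (hw : w.PosDef) (hΘ : Θ.PosSemidef) :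
    0 ≤ (w⁻¹ * Θ).trace.re :=
  (Complex.le_def.1 (C2.trace_mul_nonneg hw.inv.posSemidef hΘ)).1

lemma det_mono {w Θ : Matrix (Fin n) (Fin n) ℂ} (hw : w.PosDef) (hΘ : Θ.PosSemidef) :
    w.det.re ≤ (w + Θ).det.re := by
  have h1 := det_add_ge hw hΘ
  have h2 := trace_inv_nonneg hw hΘ
  have h3 : 0 < w.det.re := (Complex.pos_iff.1 hw.det_pos).1
  nlinarith

/-- the matrix determinant lemma -/
lemma det_rank_one {w : Matrix (Fin n) (Fin n) ℂ} (hw : w.PosDef) (a : Fin n → ℂ) {c : ℝ}
    (hc : 0 < c) : ((c : ℂ) • w + vecMulVec a (star a)).det.re =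
      c ^ n * w.det.re * (1 + qf w a / c) := by
  have hw2 : ((c : ℂ) • w).PosDef := hw.smul (by exact_mod_cast hc)
  have hdet : IsUnit ((c : ℂ) • w).det := isUnit_iff_ne_zero.2 hw2.det_pos.ne'
  have h1 : vecMulVec a (star a) = replicateCol Unit a * replicateRow Unit (star a) := by
    ext i j
    simp [vecMulVec_apply, Matrix.mul_apply]
  rw [h1, det_add_replicateCol_mul_replicateRow hdet, det_smul, Fintype.card_fin,
    det_unique (1 + replicateRow Unit (star a) * ((c : ℂ) • w)⁻¹ * replicateCol Unit a),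
    Matrix.add_apply, Matrix.one_apply_eq]
  have h2 : (replicateRow Unit (star a) * ((c : ℂ) • w)⁻¹ * replicateCol Unit a) default default =
      ((c : ℂ))⁻¹ * (w⁻¹ * vecMulVec a (star a)).trace := by
    have h3 : ((c : ℂ) • w)⁻¹ = ((c : ℂ))⁻¹ • w⁻¹ := by
      have hc' : (c : ℂ) ≠ 0 := by exact_mod_cast hc.ne'
      have := Matrix.inv_smul' (A := w) (Units.mk0 (c : ℂ) hc')
        (isUnit_iff_ne_zero.2 hw.det_pos.ne')
      simpa [Units.smul_def] using this
    rw [h3, Matrix.mul_smul, Matrix.smul_mul, Matrix.smul_apply, smul_eq_mul]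
    congr 1
    rw [h1, ← Matrix.mul_assoc, Matrix.trace_mul_comm, ← Matrix.mul_assoc, Matrix.trace,
      Fintype.sum_unique]
    rfl
  have h4 : (w⁻¹ * vecMulVec a (star a)).trace = ((qf w a : ℝ) : ℂ) := by
    have h5 := (C2.trace_mul_nonneg hw.inv.posSemidef (posSemidef_vecMulVec_self_star a))
    have h6 := (Complex.le_def.1 h5).2
    exact Complex.ext rfl (by simpa using h6.symm)
  have h7 : w.det = ((w.det.re : ℝ) : ℂ) := by
    have := (Complex.pos_iff.1 hw.det_pos).2
    exact Complex.ext rfl (by simpa using this.symm)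
  rw [h2, h4, h7]
  have h8 : (c : ℂ) ^ n * ((w.det.re : ℝ) : ℂ) * (1 + ((c : ℂ))⁻¹ * ((qf w a : ℝ) : ℂ)) =
      ((c ^ n * w.det.re * (1 + qf w a / c) : ℝ) : ℂ) := by
    push_cast
    ring
  rw [h8, Complex.ofReal_re]
  rw [Complex.ofReal_re]

end mat

section path

variable {n : ℕ} {X : Type} [TopologicalSpace X] [ChartedSpace (Cm n) X]
  [IsManifold 𝓘(ℂ, Cm n) ω X]

/-- the form `i∂∂̄ U` -/
def hF (U : X → ℝ) : D.FormM n X := fun e z => hess U e z

lemma closed_hF {U : X → ℝ} (hU : SmoothFn (n := n) U) : IsClosedForm (hF (n := n) U) :=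
  INT.isClosedForm_cHess hU

lemma hess_mul {U : X → ℝ} (hU : SmoothFn (n := n) U) (t : ℝ) {e : Chart n X} {x : X}
    (hx : At e x) : hess (fun y => t * U y) e (e x) = (t : ℂ) • hess U e (e x) := by
  have d2 : ContDiffAt ℝ 2 (fun z => U (e.symm z)) (e x) := sm_two hU hx
  exact C2.cHess_const_mul _ d2

/-- the segment between two Kähler forms -/
lemma kahler_path {A : D.FormM n X} (hA : IsKahler A) {U : X → ℝ} (hU : SmoothFn (n := n) U)
    (hA' : IsKahler (addH A U)) {t : ℝ} (h0 : 0 ≤ t) (h1 : t ≤ 1) :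
    IsKahler (addF A t (hF U)) := by
  refine isKahler_of_closed' (isClosed_addF (INT.IsKahler.isClosedForm hA) (closed_hF hU) t)
    fun e x hx => ?_
  have e1 : addF A t (hF U) e (e x) = ((1 - t : ℝ) : ℂ) • A e (e x) +
      ((t : ℝ) : ℂ) • addH A U e (e x) := by
    show A e (e x) + (t : ℂ) • hess U e (e x) = ((1 - t : ℝ) : ℂ) • A e (e x) +
      (t : ℂ) • (A e (e x) + hess U e (e x))
    push_cast
    module
  rw [e1]
  rcases h0.lt_or_eq with h | h
  · refine Matrix.PosDef.posSemidef_add (smul_psd' (hA.posDef e x hx).posSemidef (by linarith)) ?_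
    exact (hA'.posDef e x hx).smul (by exact_mod_cast h)
  · subst h
    simpa using hA.posDef e x hx

/-- the trace is monotone -/
lemma lap_le {g G : D.FormM n X} (hg : IsKahler g) (hG : IsKahler G) {L : X → ℝ}
    (hL : SmoothFn (n := n) L) {Ch : ℝ}
    (h : ∀ e x, At e x → ((Ch : ℂ) • G e (e x) - hess L e (e x)).PosSemidef) (x : X) :
    lapX g L x ≤ Ch * trX g G x := by
  have hx := at_chartAt (n := n) x
  rw [trX_eq hg.toIsHermitian hG.toIsHermitian.isForm hx, lapX_eq hg.toIsHermitian hL hx]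
  unfold trE lapE
  rw [← tr_smul, ← sub_nonneg, ← tr_sub]
  exact (Complex.le_def.1 (C2.trace_mul_nonneg (hg.posDef _ x hx).inv.posSemidef (h _ x hx))).1

variable [T2Space X] [CompactSpace X]

lemma hasDerivAt_path {A : D.FormM n X} (hA : IsKahler A) {U : X → ℝ}
    (hU : SmoothFn (n := n) U) {L : X → ℝ} (hL : Continuous L) (t : ℝ) :
    HasDerivAt (fun t : ℝ => J (addF A t (hF U)) L)
      (intX fun (e : Chart n X) z => L (e.symm z) * mixD (addF A t (hF U) e z) (hess U e z)) t := by
  have h := INT.hasDerivAt_intX (m := n) (X := X)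
    (D := fun t (e : Chart n X) z => L (e.symm z) * (addF A t (hF U) e z).det.re)
    (fun t => ((isClosed_addF (INT.IsKahler.isClosedForm hA) (closed_hF hU) t).isDensity).smul hL)
    (fun e x _ => ?_) t
  · have h2 : (intX fun (e : Chart n X) z =>
        deriv (fun s : ℝ => L (e.symm z) * (addF A s (hF U) e z).det.re) t) =
        intX fun (e : Chart n X) z =>
          L (e.symm z) * mixD (addF A t (hF U) e z) (hess U e z) :=
      INT.intX_congr fun e x _ =>
        ((H564.hasDerivAt_mixD (A e (e x)) (hess U e (e x)) t).const_mul _).deriv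
    rw [← h2]
    exact h
  · obtain ⟨a, ha⟩ := INT.isPolyN_det (A e (e x)) (hF U e (e x))
    refine ⟨fun k => L (e.symm (e x)) * a k, fun t => ?_⟩
    show L (e.symm (e x)) * (A e (e x) + (t : ℂ) • hF U e (e x)).det.re = _
    have hat := ha t
    beta_reduce at hat ⊢
    rw [hat, Finset.mul_sum]
    exact Finset.sum_congr rfl fun k _ => by ring

/-- variation of `∫ L dv` along a path of Kähler metrics -/
theorem path_le {A G : D.FormM n X} (hA : IsKahler A) (hG : IsKahler G) {U : X → ℝ}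
    (hU : SmoothFn (n := n) U) (hA' : IsKahler (addH A U)) {L : X → ℝ}
    (hL : SmoothFn (n := n) L) {C0 Ch : ℝ} (hCh : 0 ≤ Ch)
    (h : ∀ e x, At e x → ((Ch : ℂ) • G e (e x) - hess L e (e x)).PosSemidef)
    (x₀ : X) (h0 : ∀ x, U x₀ ≤ U x) (h1 : ∀ x, U x - U x₀ ≤ C0) :
    J (addH A U) L ≤ J A L + C0 * Ch * mixX A G := by
  have cL : Continuous L := sm_continuous hL
  obtain ⟨t, ⟨ht0, ht1⟩, ht⟩ := exists_hasDerivAt_eq_slope (fun t : ℝ => J (addF A t (hF U)) L)
    _ (zero_lt_one' ℝ) (fun t _ => (hasDerivAt_path hA hU cL t).continuousAt.continuousWithinAt)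
    (fun t _ => hasDerivAt_path hA hU cL t)
  have e1 : J (addF A 1 (hF U)) L = J (addH A U) L := by
    unfold H882.J
    refine INT.intX_congr fun e x hx => ?_
    beta_reduce
    congr 3
    show A e (e x) + ((1 : ℝ) : ℂ) • hess U e (e x) = A e (e x) + hess U e (e x)
    simp
  have e0 : J (addF A 0 (hF U)) L = J A L := by
    unfold H882.J
    refine INT.intX_congr fun e x hx => ?_
    beta_reduce
    congr 3
    show A e (e x) + ((0 : ℝ) : ℂ) • hess U e (e x) = A e (e x)
    simp
  simp only [e1, e0, sub_zero, div_one] at ht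
  set g := addF A t (hF U) with hgdef
  have hg : IsKahler g := kahler_path hA hU hA' ht0.le ht1.le
  have hgH := hg.toIsHermitian
  set W : X → ℝ := fun x => U x - U x₀ with hW
  have hWs : SmoothFn (n := n) W := sm_sub hU (smoothFn_const _)
  have hlW : ∀ x, lapX g W x = lapX g U x := fun x => by
    rw [hW, lapX_sub' hU (smoothFn_const _), lapX_const', sub_zero]
  have e2 : (intX fun (e : Chart n X) z => L (e.symm z) * mixD (g e z) (hess U e z)) =
      J g (fun x => W x * lapX g L x) := by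
    rw [← J_green hg hWs hL]
    unfold H882.J
    refine INT.intX_congr fun e x hx => ?_
    beta_reduce
    rw [hx.left_inv, hlW, lapX_eq hgH hU hx, H167.GM.mixD_eq (hg.posDef e x hx), mul_assoc]
    rfl
  have ctr : Continuous (trX g G) :=
    sm_continuous (smoothFn_trX hgH hG.toIsHermitian.isForm hG.smooth)
  have e3 : J g (fun x => W x * lapX g L x) ≤ C0 * Ch * mixX g G := by
    rw [← J_trX hgH hG.toIsHermitian.isForm, ← J_const_mul]
    refine J_mono hgH ((sm_continuous hWs).mul (cont_lap hgH hL)) (continuous_const.mul ctr)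
      fun x => ?_
    have a1 : 0 ≤ W x := sub_nonneg.2 (h0 x)
    have a2 : W x ≤ C0 := h1 x
    have a3 := lap_le hg hG hL h x
    have a4 : 0 ≤ Ch * trX g G x := mul_nonneg hCh (tr_nonneg hG hg x)
    calc W x * lapX g L x ≤ W x * (Ch * trX g G x) := mul_le_mul_of_nonneg_left a3 a1
      _ ≤ C0 * (Ch * trX g G x) := mul_le_mul_of_nonneg_right a2 a4
      _ = _ := by ring
  have e4 : mixX g G = mixX A G := by
    have h2 := H227.GMC.cohPart n X A G (INT.IsKahler.isClosedForm hA)
      (INT.IsKahler.isClosedForm hG) (fun x => t * U x) (fun _ => 0)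
      (sm_mul (smoothFn_const t) hU) (smoothFn_const _)
    rw [← h2]
    refine mixX_congr (fun e x hx => ?_) fun e x hx => ?_
    · show A e (e x) + (t : ℂ) • hess U e (e x) = A e (e x) + hess (fun y => t * U y) e (e x)
      rw [hess_mul hU t hx]
    · show G e (e x) = G e (e x) + hess (fun _ => (0 : ℝ)) e (e x)
      have h3 : hess (fun _ : X => (0 : ℝ)) e (e x) = 0 := by
        have h4 := hess_mul (n := n) (U := fun _ : X => (0 : ℝ)) (smoothFn_const 0) 0 hx
        simpa using h4
      rw [h3, add_zero]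
  rw [e2] at ht
  rw [← e4]
  linarith

end path

end Vale.Agent.P281.H283.KD
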