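import Vale.Agent.P281.H283.KD.MkA

/-! P281, theorem KD, block MK, part B: uniform integral estimates. -/

open scoped Manifold ContDiff Topology ComplexOrder
open Set Filter Vale.Agent.P272.K Vale.Agent.P272.K.AMP Vale.Agent.P299
open Vale.Agent.P299.H882
open Vale.Agent.P272.K.INT (intX IsClosedForm)

set_option linter.all false

noncomputable section

namespace Vale.Agent.P281.H283.KD

open Vale.Agent.P281.H167.GM Vale.Agent.P281.H283.GME

/-- Fenchel–Young -/
lemma young {a : ℝ} (ha : 1 < a) (x f : ℝ) :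
    x * Real.exp f ≤ Real.exp x + Real.exp (a * f) / (a - 1) := by
  have ha' : 0 < a - 1 := by linarith
  have h1 : (1 + (x - f)) * Real.exp f ≤ Real.exp x := by
    have h := Real.add_one_le_exp (x - f)
    calc (1 + (x - f)) * Real.exp f ≤ Real.exp (x - f) * Real.exp f :=
          mul_le_mul_of_nonneg_right (by linarith) (Real.exp_pos f).le
      _ = Real.exp x := by rw [← Real.exp_add]; ring_nf
  have h2 : f * Real.exp f ≤ Real.exp (a * f) / (a - 1) := by
    have h3 : (a - 1) * f ≤ Real.exp ((a - 1) * f) := by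
      linarith [Real.add_one_le_exp ((a - 1) * f)]
    rw [le_div_iff₀ ha']
    calc f * Real.exp f * (a - 1) = (a - 1) * f * Real.exp f := by ring
      _ ≤ Real.exp ((a - 1) * f) * Real.exp f :=
          mul_le_mul_of_nonneg_right h3 (Real.exp_pos f).le
      _ = Real.exp (a * f) := by rw [← Real.exp_add]; ring_nf
  nlinarith [Real.exp_pos f]

section

variable {n : ℕ} {X : Type} [TopologicalSpace X] [ChartedSpace (Cm n) X]
  [IsManifold 𝓘(ℂ, Cm n) ω X]

lemma lap_lower' {G g : D.FormM n X} (hG : IsKahler G) (hg : IsKahler g) {v : X → ℝ}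
    (hv : SmoothFn (n := n) v) {C1 : ℝ}
    (h : ∀ e x, At e x → (hess v e (e x) + (C1 : ℂ) • G e (e x)).PosSemidef) (x : X) :
    0 ≤ lapX g v x + C1 * trX g G x := by
  have hx := at_chartAt (n := n) x
  rw [trX_eq hg.toIsHermitian hG.toIsHermitian.isForm hx, lapX_eq hg.toIsHermitian hv hx]
  unfold trE lapE
  rw [← tr_smul, ← tr_add]
  exact (Complex.le_def.1 (C2.trace_mul_nonneg (hg.posDef _ x hx).inv.posSemidef (h _ x hx))).1

variable [T2Space X] [CompactSpace X]

/-- the main inequality: `∫ (Λ - v) tr_g G dv_g` is bounded -/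
lemma main_ineq' {G : D.FormM n X} (hG : IsKahler G) {v : X → ℝ} (hvs : SmoothFn (n := n) v)
    {C' : ℝ} (hC'0 : 0 ≤ C') {U : X → ℝ} (hU : SmoothFn (n := n) U) (hg : IsKahler (addH G U))
    (hlow : ∀ x, 0 ≤ lapX (addH G U) v x + C' * trX (addH G U) G x) (Λ : ℝ)
    {C0 : ℝ} (x₀ : X) (h0 : ∀ x, U x₀ ≤ U x) (h1 : ∀ x, U x - U x₀ ≤ C0) (hC0 : 0 ≤ C0) :
    J (addH G U) (fun x => (Λ - v x) * trX (addH G U) G x) ≤
      n * J (addH G U) (fun x => Λ - v x) +
        C0 * (C' * (n * J (addH G U) (fun _ => 1))) := by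
  set g := addH G U with hgdef
  have hgH := hg.toIsHermitian
  set W : X → ℝ := fun x => U x - U x₀ with hW
  have hWs : SmoothFn (n := n) W := sm_sub hU (smoothFn_const _)
  have hlW : ∀ x, lapX g W x = lapX g U x := fun x => by
    rw [hW, lapX_sub' hU (smoothFn_const _), lapX_const', sub_zero]
  have htr : ∀ x, trX g G x = n - lapX g W x := fun x => by
    rw [hlW]; exact tr_eq hG hU hg x
  have htr0 : ∀ x, 0 ≤ trX g G x := fun x => tr_nonneg hG hg x
  have cv : Continuous v := sm_continuous hvs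
  have cW : Continuous W := sm_continuous hWs
  have clv : Continuous (lapX g v) := cont_lap hgH hvs
  have clW : Continuous (lapX g W) := cont_lap hgH hWs
  have ctr : Continuous (trX g G) :=
    sm_continuous (smoothFn_trX hgH hG.toIsHermitian.isForm hG.smooth)
  have e1 : J g (fun x => (Λ - v x) * trX g G x) =
      n * J g (fun x => Λ - v x) - J g (fun x => (Λ - v x) * lapX g W x) := by
    have c1 : Continuous fun x => (n : ℝ) * (Λ - v x) :=
      continuous_const.mul (continuous_const.sub cv)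
    have c2 : Continuous fun x => (Λ - v x) * lapX g W x := (continuous_const.sub cv).mul clW
    rw [← J_const_mul, ← J_sub hgH c1 c2]
    refine J_congr fun x => ?_
    rw [htr x]; ring
  have hΛv : SmoothFn (n := n) (fun x => Λ - v x) := sm_sub (smoothFn_const _) hvs
  have e2 : J g (fun x => (Λ - v x) * lapX g W x) = - J g (fun x => W x * lapX g v x) := by
    rw [J_green hg hWs hΛv, neg_eq_neg_one_mul, ← J_const_mul]
    refine J_congr fun x => ?_
    rw [lapX_sub' (smoothFn_const _) hvs, lapX_const']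
    ring
  have e3 : J g (fun x => W x * lapX g v x) ≤ C0 * (C' * (n * J g (fun _ => 1))) := by
    have h2 : J g (fun x => W x * lapX g v x) ≤
        J g (fun x => C0 * (lapX g v x + C' * trX g G x)) := by
      refine J_mono hgH (cW.mul clv) (continuous_const.mul (clv.add (continuous_const.mul ctr)))
        fun x => ?_
      have a1 : 0 ≤ W x := sub_nonneg.2 (h0 x)
      have a2 : W x ≤ C0 := h1 x
      have a3 := hlow x
      have a4 : 0 ≤ C' * trX g G x := mul_nonneg hC'0 (htr0 x)
      nlinarith [mul_nonneg a1 a4, mul_le_mul_of_nonneg_right a2 a3]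
    refine h2.trans (le_of_eq ?_)
    have c3 : Continuous fun x => C' * trX g G x := continuous_const.mul ctr
    have c4 : Continuous fun _ : X => (n : ℝ) * 1 := continuous_const
    rw [J_const_mul, J_add hgH clv c3, J_const_mul, J_lap hg hvs, zero_add]
    have h3 : J g (trX g G) = n * J g (fun _ => 1) := by
      have h4 : J g (trX g G) = J g (fun x => n * 1 - lapX g W x) :=
        J_congr fun x => by rw [htr x, mul_one]
      rw [h4, J_sub hgH c4 clW, J_const_mul, J_lap hg hWs, sub_zero]
    rw [h3]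
  rw [e1, e2]
  linarith

/-- uniform exponential integrability -/
lemma exists_expint [ConnectedSpace X] {G : D.FormM n X} (hG : IsKahler G) (C1 Λ : ℝ) :
    ∃ α : ℝ, 0 < α ∧ ∃ K : ℝ, ∀ v : X → ℝ, SmoothFn (n := n) v →
      (∀ e x, At e x → (hess v e (e x) + (C1 : ℂ) • G e (e x)).PosSemidef) →
      (∀ x, v x ≤ Λ) → (∃ x, -Λ ≤ v x) → J G (fun x => Real.exp (α * (Λ - v x))) ≤ K := by
  obtain ⟨α, hα, K, hK⟩ := expInt (LEX.localExp n) (X := X) G hG.toIsHermitian C1 Λ
  refine ⟨α, hα, Real.exp (α * Λ) * K, fun v hv h1 h2 h3 => ?_⟩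
  have h4 := hK v hv (fun e x hx => ?_) h2 h3
  · have h5 : J G (fun x => Real.exp (α * (Λ - v x))) =
        Real.exp (α * Λ) * J G (fun x => Real.exp (-(α * v x))) := by
      rw [← J_const_mul]
      refine J_congr fun x => ?_
      rw [← Real.exp_add]
      ring_nf
    rw [h5]
    exact mul_le_mul_of_nonneg_left h4 (Real.exp_pos _).le
  · have h6 := h1 e x hx
    rw [add_comm] at h6
    exact h6

lemma J_lin_le {G : D.FormM n X} (hG : IsKahler G) {v : X → ℝ} (hv : SmoothFn (n := n) v)
    {α : ℝ} (hα : 0 < α) {Λ K : ℝ} (h : J G (fun x => Real.exp (α * (Λ - v x))) ≤ K) :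
    J G (fun x => Λ - v x) ≤ α⁻¹ * K := by
  have cv : Continuous v := sm_continuous hv
  have h1 : J G (fun x => Λ - v x) ≤ J G (fun x => α⁻¹ * Real.exp (α * (Λ - v x))) := by
    refine J_mono hG.toIsHermitian (continuous_const.sub cv) (continuous_const.mul
      (Real.continuous_exp.comp (continuous_const.mul (continuous_const.sub cv)))) fun x => ?_
    rw [inv_mul_eq_div, le_div_iff₀ hα]
    have := Real.add_one_le_exp (α * (Λ - v x))
    linarith
  rw [J_const_mul] at h1
  exact h1.trans (mul_le_mul_of_nonneg_left h (inv_pos.2 hα).le)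

/-- the uniform estimate of `∫ (Λ + 1 - v) tr_g G dv_g` -/
theorem exists_main [ConnectedSpace X] {G : D.FormM n X} (hG : IsKahler G) {C1 : ℝ}
    (hC1 : 0 ≤ C1) (Λ : ℝ) {a : ℝ} (ha : 1 < a) (B C0 : ℝ) (hC0 : 0 ≤ C0) :
    ∃ K : ℝ, 0 ≤ K ∧ ∀ U f v : X → ℝ, SmoothFn (n := n) U → SmoothFn (n := n) f →
      SmoothFn (n := n) v → IsKahler (addH G U) →
      (∀ e x, At e x → Real.log (addH G U e (e x)).det.re =
        Real.log (G e (e x)).det.re + f x) →
      J G (fun x => Real.exp (a * f x)) ≤ B → (∀ x y, U x - U y ≤ C0) →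
      (∀ e x, At e x → (hess v e (e x) + (C1 : ℂ) • G e (e x)).PosSemidef) →
      (∀ x, v x ≤ Λ) → (∃ x, -Λ ≤ v x) →
      J (addH G U) (fun x => (Λ + 1 - v x) * trX (addH G U) G x) ≤ K := by
  obtain ⟨α, hα, K₀, hK₀⟩ := exists_expint hG C1 Λ
  have ha' : 0 < a - 1 := by linarith
  have hGH := hG.toIsHermitian
  set V : ℝ := J G (fun _ => 1) with hV
  refine ⟨|n * (α⁻¹ * (K₀ + B / (a - 1)) + V) + C0 * (C1 * (n * V))|, abs_nonneg _,
    fun U f v hU hf hv hg hdet hB hosc hh h1 h2 => ?_⟩
  refine le_trans ?_ (le_abs_self _)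
  have hK := hK₀ v hv hh h1 h2
  obtain ⟨x₁, hx₁⟩ := h2
  haveI : Nonempty X := ⟨x₁⟩
  obtain ⟨x₀, -, hx₀⟩ := isCompact_univ.exists_isMinOn univ_nonempty (sm_continuous hU).continuousOn
  have hmain := main_ineq' hG hv hC1 hU hg (lap_lower' hG hg hv hh) (Λ + 1) x₀
    (fun x => hx₀ (mem_univ x)) (fun x => hosc x x₀) hC0
  have hgH := hg.toIsHermitian
  have hvol : J (addH G U) (fun _ => 1) = V := by
    rw [hV, J_one, J_one]
    exact INT.intX_det_add_cHess (INT.IsKahler.isClosedForm hG) hU
  have cv : Continuous v := sm_continuous hv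
  have cf : Continuous f := sm_continuous hf
  have e1 : J (addH G U) (fun x => Λ + 1 - v x) = J (addH G U) (fun x => Λ - v x) + V := by
    have c1 : Continuous fun x => Λ - v x := continuous_const.sub cv
    have c2 : Continuous fun _ : X => (1 : ℝ) := continuous_const
    rw [← hvol, ← J_add hgH c1 c2]
    exact J_congr fun x => by ring
  have hdR : ∀ x, detR (addH G U) G x = Real.exp (f x) := fun x => by
    have hx := at_chartAt (n := n) x
    have a1 := hdet _ x hx
    have a2 := hgH.det_re_pos hx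
    have a3 := hGH.det_re_pos hx
    rw [detR_eq hgH hGH hx, ← Real.exp_log (div_pos a2 a3), Real.log_div a2.ne' a3.ne', a1]
    congr 1
    ring
  have cE : Continuous fun x => Real.exp (α * (Λ - v x)) :=
    Real.continuous_exp.comp (continuous_const.mul (continuous_const.sub cv))
  have cF : Continuous fun x => Real.exp (a * f x) :=
    Real.continuous_exp.comp (continuous_const.mul cf)
  have e2 : J (addH G U) (fun x => Λ - v x) ≤ α⁻¹ * (K₀ + B / (a - 1)) := by
    rw [← J_detR hgH hGH]
    have b1 : J G (fun x => (Λ - v x) * detR (addH G U) G x) ≤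
        J G (fun x => α⁻¹ * (Real.exp (α * (Λ - v x)) + (a - 1)⁻¹ * Real.exp (a * f x))) := by
      refine J_mono hGH ((continuous_const.sub cv).mul (sm_continuous (smoothFn_detR hgH hGH)))
        (continuous_const.mul (cE.add (continuous_const.mul cF))) fun x => ?_
      rw [hdR x, inv_mul_eq_div, le_div_iff₀ hα]
      have h3 := young ha (α * (Λ - v x)) (f x)
      rw [div_eq_inv_mul] at h3
      linarith
    refine b1.trans ?_
    have c3 : Continuous fun x => (a - 1)⁻¹ * Real.exp (a * f x) := continuous_const.mul cF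
    rw [J_const_mul, J_add hGH cE c3, J_const_mul]
    refine mul_le_mul_of_nonneg_left (add_le_add hK ?_) (inv_pos.2 hα).le
    rw [div_eq_inv_mul]
    exact mul_le_mul_of_nonneg_left hB (inv_pos.2 ha').le
  rw [e1, hvol] at hmain
  refine hmain.trans ?_
  have hn : (0 : ℝ) ≤ n := Nat.cast_nonneg n
  have := mul_le_mul_of_nonneg_left (add_le_add_left e2 V) hn
  linarith

end

end Vale.Agent.P281.H283.KD
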