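import Vale.Agent.P281.H283.KD.MkB

/-! P281, theorem KD, block MK, part C: the boundary, holomorphic norms, lower bounds of Hessians. -/

open scoped Manifold ContDiff Topology ComplexOrder
open Set Filter Vale.Agent.P272.K Vale.Agent.P272.K.AMP Vale.Agent.P299
open Vale.Agent.P299.H882
open Vale.Agent.P272.K.INT (intX IsClosedForm)

set_option linter.all false

noncomputable section

namespace Vale.Agent.P281.H283.KD

open Vale.Agent.P281.H167.GM Vale.Agent.P281.H283.GME Vale.Agent.P281.H713.KD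

section

variable {n M : ℕ} {X : Type} [TopologicalSpace X] [ChartedSpace (Cm n) X]

lemma bd_nonneg {Dv : Fin M → Set X} {r : Fin M → X → ℝ} {R : Fin M → D.FormM n X}
    (h : IsBd Dv r R) (i : Fin M) (x : X) : 0 ≤ r i x := by
  obtain ⟨g, ψ, -, -, -, -, hev⟩ := h.loc _ x (at_chartAt x)
  have h1 := (hev.self_of_nhds i).1
  rw [(at_chartAt (n := n) x).left_inv] at h1
  rw [h1]
  positivity

lemma bd_exists_pos {Dv : Fin M → Set X} {r : Fin M → X → ℝ} {R : Fin M → D.FormM n X}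
    (h : IsBd Dv r R) (i : Fin M) (x₀ : X) : ∃ x, 0 < r i x := by
  by_contra hcon
  push Not at hcon
  have h0 : ∀ x, r i x = 0 := fun x => le_antisymm (hcon x) (bd_nonneg h i x)
  obtain ⟨g, ψ, hg, -, -, hli, hev⟩ := h.loc _ x₀ (at_chartAt x₀)
  have h1 : ∀ᶠ z in 𝓝 (chartAt (Cm n) x₀ x₀), g i z = 0 := by
    filter_upwards [hev] with z hz
    have h2 := (hz i).1
    rw [h0] at h2
    rcases mul_eq_zero.1 h2.symm with h | h
    · exact norm_eq_zero.1 (pow_eq_zero_iff two_ne_zero |>.1 h)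
    · exact absurd h (Real.exp_pos _).ne'
  have h3 : g i (chartAt (Cm n) x₀ x₀) = 0 := h1.self_of_nhds
  have h4 : fderiv ℂ (g i) (chartAt (Cm n) x₀ x₀) = 0 := by
    have h5 : g i =ᶠ[𝓝 (chartAt (Cm n) x₀ x₀)] fun _ => (0 : ℂ) := h1
    rw [h5.fderiv_eq]
    simp
  exact hli.ne_zero ⟨i, h3⟩ h4

lemma holNorm_nonneg {h : X → ℝ} (hh : IsHolNorm (n := n) h) (x : X) : 0 ≤ h x := by
  obtain ⟨N, a, H, -, -, hpos, hev⟩ := hh _ x (at_chartAt x)
  have h1 := hev.self_of_nhds.2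
  rw [(at_chartAt (n := n) x).left_inv] at h1
  rw [h1]
  have h2 := hpos.posSemidef.dotProduct_mulVec_nonneg
    (fun c => (starRingEnd ℂ) (a c (chartAt (Cm n) x x)))
  have h3 : (star (fun c => (starRingEnd ℂ) (a c (chartAt (Cm n) x x)))) ⬝ᵥ
      (H (chartAt (Cm n) x x)).mulVec (fun c => (starRingEnd ℂ) (a c (chartAt (Cm n) x x))) =
      ∑ b, ∑ c, a b (chartAt (Cm n) x x) * (starRingEnd ℂ) (a c (chartAt (Cm n) x x)) *
        H (chartAt (Cm n) x x) b c := by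
    simp only [dotProduct, Matrix.mulVec, Pi.star_apply, RCLike.star_def, Complex.conj_conj]
    refine Finset.sum_congr rfl fun b _ => ?_
    rw [Finset.mul_sum]
    exact Finset.sum_congr rfl fun c _ => by ring
  rw [h3] at h2
  exact (Complex.le_def.1 h2).1

lemma holNorm_const_mul {h : X → ℝ} (hh : IsHolNorm (n := n) h) {c : ℝ} (hc : 0 < c) :
    IsHolNorm (n := n) (fun x => c * h x) := by
  intro e x hx
  obtain ⟨N, a, H, ha, hH, hpos, hev⟩ := hh e x hx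
  refine ⟨N, a, fun z => (c : ℂ) • H z, ha, fun b c' => contDiffAt_const.mul (hH b c'),
    hpos.smul (by exact_mod_cast hc), ?_⟩
  filter_upwards [hev] with z hz
  refine ⟨?_, ?_⟩
  · have h1 := hz.1
    unfold Matrix.IsHermitian at h1 ⊢
    rw [Matrix.conjTranspose_smul, h1]
    simp
  · beta_reduce
    rw [hz.2, ← Complex.re_ofReal_mul, Finset.mul_sum]
    congr 1
    refine Finset.sum_congr rfl fun b _ => ?_
    rw [Finset.mul_sum]
    refine Finset.sum_congr rfl fun c' _ => ?_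
    rw [Matrix.smul_apply, smul_eq_mul]
    ring

/-- `i∂∂̄ log (r + ε) ≥ - 2 C G` -/
lemma hess_bd_lower {r : X → ℝ} (hr0 : ∀ x, 0 ≤ r x) {R : D.FormM n X} {G : D.FormM n X}
    {Cb ε : ℝ} (hCb : 0 ≤ Cb) (hε : 0 < ε) {e : Chart n X} {x : X}
    (hG : (G e (e x)).PosSemidef)
    (hR : ((Cb : ℂ) • G e (e x) - R e (e x)).PosSemidef)
    (hdF : (dF r R ε e (e x) + ((Cb * (ε / (r x + ε)) : ℝ) : ℂ) • G e (e x)).PosSemidef) :
    (hess (fun y => Real.log (r y + ε)) e (e x) + ((2 * Cb : ℝ) : ℂ) • G e (e x)).PosSemidef := by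
  have hr : 0 < r x + ε := by have := hr0 x; linarith
  have h1 : ε / (r x + ε) ≤ 1 := by rw [div_le_one hr]; have := hr0 x; linarith
  have h3 : 0 ≤ Cb - Cb * (ε / (r x + ε)) := by nlinarith
  have e1 : hess (fun y => Real.log (r y + ε)) e (e x) + ((2 * Cb : ℝ) : ℂ) • G e (e x) =
      (dF r R ε e (e x) + ((Cb * (ε / (r x + ε)) : ℝ) : ℂ) • G e (e x)) +
        ((Cb : ℂ) • G e (e x) - R e (e x)) +
        ((Cb - Cb * (ε / (r x + ε)) : ℝ) : ℂ) • G e (e x) := by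
    have h4 : dF r R ε e (e x) = hess (fun y => Real.log (r y + ε)) e (e x) + R e (e x) := rfl
    rw [h4]
    push_cast
    module
  rw [e1]
  exact (hdF.add hR).add (smul_psd' hG h3)

/-- `i∂∂̄ log(ρ + δ) ≥ - C₁ G` uniformly in `δ` -/
lemma hess_lowerK [IsManifold 𝓘(ℂ, Cm n) ω X] {m : ℕ} (hm : 0 < m) {φ : Chart n X → Cm n → ℝ} (hφ : IsCanonicalMetric φ)
    {ρ : X → ℝ} (hρ : SmoothFn (n := n) ρ) (hρ0 : ∀ x, 0 ≤ ρ x) {G : D.FormM n X}
    (hG : IsKahler G) {dl : Fin M → ℝ} (hdl : ∀ i, 0 ≤ dl i) {R : Fin M → D.FormM n X}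
    {C A Cb : ℝ} (hC : CurvKGe φ m ρ dl R C G)
    (hA : ∀ e x, At e x → ((A : ℂ) • G e (e x) - cHess (φ e) (e x)).PosSemidef)
    (hR : ∀ i e x, At e x → ((Cb : ℂ) • G e (e x) - R i e (e x)).PosSemidef) {δ : ℝ}
    (hδ : 0 < δ) {e : Chart n X} {x : X} (hx : At e x) :
    (hess (fun y => Real.log (ρ y + δ)) e (e x) +
      ((m * (|C| + A + ∑ i, dl i * Cb) : ℝ) : ℂ) • G e (e x)).PosSemidef := by
  have hr : 0 < ρ x + δ := by have := hρ0 x; linarith
  have h1 : δ / (ρ x + δ) ≤ 1 := by rw [div_le_one hr]; have := hρ0 x; linarith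
  have h2 : 0 ≤ δ / (ρ x + δ) := by positivity
  have h3 : 0 ≤ |C| - C * (δ / (ρ x + δ)) := by
    have h4 := le_abs_self C
    have h5 := abs_nonneg C
    have h6 : C * (δ / (ρ x + δ)) ≤ |C| * 1 := mul_le_mul h4 h1 h2 h5
    linarith
  have h7 : (∑ i, ((dl i : ℝ) : ℂ) • ((Cb : ℂ) • G e (e x) - R i e (e x))) =
      ((∑ i, dl i * Cb : ℝ) : ℂ) • G e (e x) - ∑ i, ((dl i : ℝ) : ℂ) • R i e (e x) := by
    simp only [smul_sub, smul_smul]
    rw [Finset.sum_sub_distrib, ← Finset.sum_smul]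
    push_cast
    rfl
  have h8 : (∑ i, ((dl i : ℝ) : ℂ) • ((Cb : ℂ) • G e (e x) - R i e (e x))).PosSemidef :=
    Matrix.posSemidef_sum _ fun i _ => smul_psd' (hR i e x hx) (hdl i)
  have e1 : hess (fun y => Real.log (ρ y + δ)) e (e x) +
      ((m * (|C| + A + ∑ i, dl i * Cb) : ℝ) : ℂ) • G e (e x) =
      ((m : ℝ) : ℂ) • ((curvK φ m ρ δ dl R e (e x) +
        ((C * (δ / (ρ x + δ)) : ℝ) : ℂ) • G e (e x)) +
        ((|C| - C * (δ / (ρ x + δ)) : ℝ) : ℂ) • G e (e x) +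
        ((A : ℂ) • G e (e x) - cHess (φ e) (e x)) +
        ∑ i, ((dl i : ℝ) : ℂ) • ((Cb : ℂ) • G e (e x) - R i e (e x))) := by
    rw [h7, hess_logD hm hφ hρ hρ0 hδ hx]
    unfold curvK
    generalize (∑ i, ((dl i : ℝ) : ℂ) • R i e (e x)) = S
    generalize (∑ i, dl i * Cb) = s
    push_cast
    module
  rw [e1]
  exact smul_psd' ((((hC δ hδ e x hx).add (smul_psd' (hG.posDef e x hx).posSemidef h3)).add
    (hA e x hx)).add h8) (Nat.cast_nonneg m)

end

end Vale.Agent.P281.H283.KD
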