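import Vale.Agent.P281.H283.KD.MkC

/-! P281, theorem KD, block MK, part D: no mass of the current `[D]` on `{h = 0}`. -/

open scoped Manifold ContDiff Topology ComplexOrder
open Set Filter Vale.Agent.P272.K Vale.Agent.P272.K.AMP Vale.Agent.P299
open Vale.Agent.P299.H882
open Vale.Agent.P272.K.INT (intX IsClosedForm)

set_option linter.all false

noncomputable section

namespace Vale.Agent.P281.H283.KD

open Vale.Agent.P281.H167.GM Vale.Agent.P281.H283.GME Vale.Agent.P281.H713.KD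

section

variable {n : ℕ} {X : Type} [TopologicalSpace X] [ChartedSpace (Cm n) X]
  [IsManifold 𝓘(ℂ, Cm n) ω X]

/-- the estimates for one component of the boundary -/
structure BdI (G R : D.FormM n X) (r : X → ℝ) (Cb : ℝ) : Prop where
  nonneg : ∀ x, 0 ≤ r x
  smooth : SmoothFn (n := n) r
  closed : IsClosedForm R
  pos : 0 ≤ Cb
  dF_low : ∀ ε : ℝ, 0 < ε → ε ≤ 1 → ∀ e x, At e x →
    (dF r R ε e (e x) + ((Cb * (ε / (r x + ε)) : ℝ) : ℂ) • G e (e x)).PosSemidef
  dF_up : ∀ ε : ℝ, 0 < ε → ε ≤ 1 → ∀ e x, At e x → ∃ a : Fin n → ℂ,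
    ((Cb : ℂ) • G e (e x) + Matrix.vecMulVec a (star a) - dF r R ε e (e x)).PosSemidef ∧
      qf (G e (e x)) a ≤ Cb * (ε / (r x + ε) ^ 2)

lemma BdI.smooth_log {G R : D.FormM n X} {r : X → ℝ} {Cb : ℝ} (hB : BdI G R r Cb) {ε : ℝ}
    (hε : 0 < ε) : SmoothFn (n := n) (fun y => Real.log (r y + ε)) :=
  sm_log (sm_add hB.smooth (smoothFn_const ε)) fun y => by have := hB.nonneg y; linarith

lemma BdI.closed_dF {G R : D.FormM n X} {r : X → ℝ} {Cb : ℝ} (hB : BdI G R r Cb) {ε : ℝ}
    (hε : 0 < ε) : IsClosedForm (dF r R ε) :=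
  (INT.isClosedForm_cHess (hB.smooth_log hε)).add hB.closed

lemma BdI.psd {G R : D.FormM n X} (hG : IsKahler G) {r : X → ℝ} {Cb : ℝ} (hB : BdI G R r Cb)
    {C'' : ℝ} (hC'' : Cb ≤ C'') {ε : ℝ} (hε : 0 < ε) (hε1 : ε ≤ 1) {e : Chart n X} {x : X}
    (hx : At e x) : (addF (dF r R ε) C'' G e (e x)).PosSemidef := by
  have hr : 0 < r x + ε := by have := hB.nonneg x; linarith
  have h1 : ε / (r x + ε) ≤ 1 := by rw [div_le_one hr]; have := hB.nonneg x; linarith
  have h3 : 0 ≤ C'' - Cb * (ε / (r x + ε)) := by nlinarith [hB.pos]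
  have e1 : addF (dF r R ε) C'' G e (e x) =
      (dF r R ε e (e x) + ((Cb * (ε / (r x + ε)) : ℝ) : ℂ) • G e (e x)) +
        ((C'' - Cb * (ε / (r x + ε)) : ℝ) : ℂ) • G e (e x) := by
    show dF r R ε e (e x) + (C'' : ℂ) • G e (e x) = _
    push_cast
    module
  rw [e1]
  exact (hB.dF_low ε hε hε1 e x hx).add (smul_psd' (hG.posDef e x hx).posSemidef h3)

lemma hess_const_sub {v : X → ℝ} (hv : SmoothFn (n := n) v) (c : ℝ) {e : Chart n X} {x : X}
    (hx : At e x) : hess (fun y => c - v y) e (e x) = - hess v e (e x) := by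
  have d2 : ContDiffAt ℝ 2 (fun z => v (e.symm z)) (e x) := sm_two hv hx
  have h1 := cHess_sub (f := fun _ : Cm n => c) (g := fun z => v (e.symm z)) (z := e x)
    contDiffAt_const d2
  show cHess (fun z => c - v (e.symm z)) (e x) = - cHess (fun z => v (e.symm z)) (e x)
  rw [h1, N.cHess_const, zero_sub]

variable [T2Space X] [CompactSpace X]

lemma J_tr_le {g Θ g' : D.FormM n X} (hg : IsKahler g) (hg' : IsKahler g') (hΘ : IsForm Θ)
    (hs : ∀ e x, At e x → ∀ i j, ContDiffAt ℝ ∞ (fun z => Θ e z i j) (e x))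
    (hp : ∀ e x, At e x → (Θ e (e x)).PosSemidef)
    (he : ∀ e x, At e x → g' e (e x) = g e (e x) + Θ e (e x)) {L : X → ℝ} (cL : Continuous L)
    (hL : ∀ x, 0 ≤ L x) : J g (fun x => L x * trX g Θ x) ≤ J g' L := by
  have ctr : Continuous (trX g Θ) := sm_continuous (smoothFn_trX hg.toIsHermitian hΘ hs)
  unfold H882.J
  refine INT.intX_mono (J_dens hg.toIsHermitian (cL.mul ctr)) (J_dens hg'.toIsHermitian cL)
    fun e x hx => ?_
  beta_reduce
  rw [hx.left_inv, he e x hx, trX_eq hg.toIsHermitian hΘ hx]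
  have h1 := det_add_ge (hg.posDef e x hx) (hp e x hx)
  have h2 := hg.toIsHermitian.det_re_pos hx
  have h3 := hL x
  unfold trE
  have h4 := mul_le_mul_of_nonneg_left h1 h3
  have h5 := mul_nonneg h3 h2.le
  nlinarith

/-- no mass of `[D]` on `{h = 0}` -/
theorem exists_bd {G R : D.FormM n X} (hG : IsKahler G) {r : X → ℝ} {Cb : ℝ}
    (hB : BdI G R r Cb) {h : X → ℝ} (hh : SmoothFn (n := n) h) (hh0 : ∀ x, 0 ≤ h x) {Ch : ℝ}
    (hCh0 : 0 ≤ Ch) (hCh : ∀ b : ℝ, 0 < b → b ≤ 1 → ∀ e x, At e x →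
      (hess (fun y => Real.log (h y + b)) e (e x) + (Ch : ℂ) • G e (e x)).PosSemidef) {Λ : ℝ}
    (hΛ : ∀ b : ℝ, 0 < b → b ≤ 1 → ∀ x, Real.log (h x + b) ≤ Λ) {KL K2 : ℝ}
    (hKL : ∀ b : ℝ, 0 < b → b ≤ 1 → J G (fun x => Λ - Real.log (h x + b)) ≤ KL)
    (hK2 : ∀ ε b : ℝ, 0 < ε → ε ≤ 1 → 0 < b → b ≤ 1 →
      J G (fun x => (Λ - Real.log (h x + b)) * (ε / (r x + ε) ^ 2)) ≤ K2) {C'' : ℝ}
    (hC'' : Cb ≤ C'') (C0 : ℝ) :
    ∃ K : ℝ, 0 ≤ K ∧ ∀ ε b : ℝ, 0 < ε → ε ≤ 1 → 0 < b → b ≤ 1 → ∀ U : X → ℝ,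
      SmoothFn (n := n) U → IsKahler (addH G U) → (∀ x y, U x - U y ≤ C0) →
      J (addH G U) (fun x => (Λ - Real.log (h x + b)) *
        trX (addH G U) (addF (dF r R ε) C'' G) x) ≤ K := by
  set R' : D.FormM n X := addF R (1 + C'') G with hR'
  set c : ℝ := 1 + C'' + Cb with hc
  have hCb := hB.pos
  have hc1 : 1 ≤ c := by linarith
  have hGc := INT.IsKahler.isClosedForm hG
  have hR'c : IsClosedForm R' := isClosed_addF hB.closed hGc (1 + C'')
  refine ⟨|c ^ n * (KL + Cb * K2) + C0 * Ch * mixX R' G|, abs_nonneg _,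
    fun ε b hε hε1 hb hb1 U hU hg hosc => ?_⟩
  refine le_trans ?_ (le_abs_self _)
  set v : X → ℝ := fun y => Real.log (r y + ε) with hv
  have hvs : SmoothFn (n := n) v := hB.smooth_log hε
  set L : X → ℝ := fun x => Λ - Real.log (h x + b) with hL
  have hls : SmoothFn (n := n) (fun y => Real.log (h y + b)) :=
    sm_log (sm_add hh (smoothFn_const b)) fun y => by have := hh0 y; linarith
  have hLs : SmoothFn (n := n) L := sm_sub (smoothFn_const _) hls
  have cL : Continuous L := sm_continuous hLs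
  have hL0 : ∀ x, 0 ≤ L x := fun x => sub_nonneg.2 (hΛ b hb hb1 x)
  set G' : D.FormM n X := addH R' v with hG'
  have hG'c : IsClosedForm G' := H227.GMC.isClosed_addH hR'c hvs
  have eG' : ∀ (e : Chart n X) z, G' e z = G e z + addF (dF r R ε) C'' G e z := by
    intro e z
    show (R e z + ((1 + C'' : ℝ) : ℂ) • G e z) + hess v e z =
      G e z + ((hess v e z + R e z) + (C'' : ℂ) • G e z)
    push_cast
    module
  have hG'k : IsKahler G' := isKahler_of_closed' hG'c fun e x hx => by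
    rw [eG']
    exact (hG.posDef e x hx).add_posSemidef (hB.psd hG hC'' hε hε1 hx)
  have eA : ∀ (e : Chart n X) z, addH G' U e z = addH G U e z + addF (dF r R ε) C'' G e z := by
    intro e z
    show G' e z + hess U e z = (G e z + hess U e z) + _
    rw [eG']
    abel
  have hA'k : IsKahler (addH G' U) :=
    isKahler_of_closed' (H227.GMC.isClosed_addH hG'c hU) fun e x hx => by
      rw [eA]
      exact (hg.posDef e x hx).add_posSemidef (hB.psd hG hC'' hε hε1 hx)
  have hΘc : IsClosedForm (addF (dF r R ε) C'' G) := isClosed_addF (hB.closed_dF hε) hGc C''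
  have s1 : J (addH G U) (fun x => L x * trX (addH G U) (addF (dF r R ε) C'' G) x) ≤
      J (addH G' U) L :=
    J_tr_le hg hA'k hΘc.form hΘc.smooth (fun e x hx => hB.psd hG hC'' hε hε1 hx)
      (fun e x hx => eA e (e x)) cL hL0
  have s2 : J (addH G' U) L ≤ J G' L + C0 * Ch * mixX G' G := by
    rcases isEmpty_or_nonempty X with hX | hX
    · have e0 : ∀ g : D.FormM n X, J g L = 0 := fun g => by
        unfold H882.J
        have h0 : (fun (e : Chart n X) (z : Cm n) => L (e.symm z) * (g e z).det.re) =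
          fun (e : Chart n X) (z : Cm n) => (0 : ℝ) := by
          funext e z
          exact (hX.false (e.symm z)).elim
        rw [h0, INT.intX_zero]
      have e1 : mixX G' G = 0 := by
        unfold mixX
        rw [INT.intX_congr (D' := fun (e : Chart n X) (z : Cm n) => (0 : ℝ))
          (fun e x _ => (hX.false x).elim), INT.intX_zero]
      rw [e0, e0, e1]
      simp
    obtain ⟨x₀, -, hx₀⟩ := isCompact_univ.exists_isMinOn univ_nonempty
      (sm_continuous hU).continuousOn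
    refine path_le hG'k hG hU hA'k hLs hCh0 (fun e x hx => ?_) x₀ (fun x => hx₀ (mem_univ x))
      fun x => hosc x x₀
    rw [hL, hess_const_sub hls Λ hx, sub_neg_eq_add, add_comm]
    exact hCh b hb hb1 e x hx
  have s3 : mixX G' G = mixX R' G := by
    have h2 := H227.GMC.cohPart n X R' G hR'c hGc v (fun _ => 0) hvs (smoothFn_const _)
    rw [← h2]
    refine mixX_congr (fun e x hx => rfl) fun e x hx => ?_
    show G e (e x) = G e (e x) + hess (fun _ => (0 : ℝ)) e (e x)
    have h3 : hess (fun _ : X => (0 : ℝ)) e (e x) = 0 := by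
      have h4 := hess_mul (n := n) (U := fun _ : X => (0 : ℝ)) (smoothFn_const 0) 0 hx
      simpa using h4
    rw [h3, add_zero]
  have hrε : ∀ x, 0 < r x + ε := fun x => by have := hB.nonneg x; linarith
  have cr : Continuous fun x => ε / (r x + ε) ^ 2 :=
    continuous_const.div (((sm_continuous hB.smooth).add continuous_const).pow 2)
      fun x => (pow_pos (hrε x) 2).ne'
  have cLr : Continuous fun x => L x * (ε / (r x + ε) ^ 2) := cL.mul cr
  have s4 : J G' L ≤ J G (fun x => c ^ n * (L x + Cb * (L x * (ε / (r x + ε) ^ 2)))) := by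
    unfold H882.J
    refine INT.intX_mono (J_dens hG'k.toIsHermitian cL) (J_dens hG.toIsHermitian
      (continuous_const.mul (cL.add (continuous_const.mul cLr)))) fun e x hx => ?_
    beta_reduce
    rw [hx.left_inv]
    obtain ⟨a, ha1, ha2⟩ := hB.dF_up ε hε hε1 e x hx
    have h1 := det_mono (hG'k.posDef e x hx) ha1
    have e1 : G' e (e x) + ((Cb : ℂ) • G e (e x) + Matrix.vecMulVec a (star a) -
        dF r R ε e (e x)) = (c : ℂ) • G e (e x) + Matrix.vecMulVec a (star a) := by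
      rw [eG']
      show G e (e x) + (dF r R ε e (e x) + (C'' : ℂ) • G e (e x)) + _ = _
      rw [hc]
      push_cast
      module
    rw [e1, det_rank_one (hG.posDef e x hx) a (by linarith)] at h1
    have h2 := hG.toIsHermitian.det_re_pos hx
    have h3 := hL0 x
    have h4 : 0 ≤ Cb * (ε / (r x + ε) ^ 2) :=
      mul_nonneg hCb (div_nonneg hε.le (pow_pos (hrε x) 2).le)
    have h5 : qf (G e (e x)) a / c ≤ Cb * (ε / (r x + ε) ^ 2) := by
      rw [div_le_iff₀ (by linarith)]
      nlinarith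
    have h6 : 0 ≤ c ^ n * (G e (e x)).det.re := by positivity
    calc L x * (G' e (e x)).det.re
        ≤ L x * (c ^ n * (G e (e x)).det.re * (1 + qf (G e (e x)) a / c)) :=
          mul_le_mul_of_nonneg_left h1 h3
      _ ≤ L x * (c ^ n * (G e (e x)).det.re * (1 + Cb * (ε / (r x + ε) ^ 2))) := by
          refine mul_le_mul_of_nonneg_left (mul_le_mul_of_nonneg_left ?_ h6) h3
          linarith
      _ = _ := by ring
  have s5 : J G (fun x => c ^ n * (L x + Cb * (L x * (ε / (r x + ε) ^ 2)))) ≤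
      c ^ n * (KL + Cb * K2) := by
    have c1 : Continuous fun x => Cb * (L x * (ε / (r x + ε) ^ 2)) := continuous_const.mul cLr
    rw [J_const_mul, J_add hG.toIsHermitian cL c1, J_const_mul]
    refine mul_le_mul_of_nonneg_left (add_le_add (hKL b hb hb1) ?_) (by positivity)
    exact mul_le_mul_of_nonneg_left (hK2 ε b hε hε1 hb hb1) hCb
  rw [s3] at s2
  linarith

end

end Vale.Agent.P281.H283.KD
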