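import Vale.Agent.P281.H283.KD.MkD

/-! P281, theorem KD, block MK, part E: the volume forms are uniformly in `L^a`, `a > 1`. -/

open scoped Manifold ContDiff Topology ComplexOrder
open Set Filter Vale.Agent.P272.K Vale.Agent.P272.K.AMP Vale.Agent.P299
open Vale.Agent.P299.H882
open Vale.Agent.P272.K.INT (intX IsClosedForm)

set_option linter.all false

noncomputable section

namespace Vale.Agent.P281.H283.KD

open Vale.Agent.P281.H167.GM Vale.Agent.P281.H283.GME Vale.Agent.P281.H713.KD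

lemma exp_le_rpow {t s a' : ℝ} (ht : 0 < t) (ht2 : t ≤ 2) (hs : 0 ≤ s) (hsa : s ≤ a')
    (ha' : a' < 1) : Real.exp (-(s * Real.log t)) ≤ 2 * t ^ (-a') := by
  have h1 : Real.log t ≤ Real.log 2 := Real.log_le_log ht ht2
  have h2 : 0 < Real.log 2 := Real.log_pos one_lt_two
  rw [Real.rpow_def_of_pos ht]
  calc Real.exp (-(s * Real.log t)) ≤ Real.exp (Real.log 2 + Real.log t * (-a')) := by
        refine Real.exp_le_exp.2 ?_
        rcases le_total 0 (Real.log t) with h | h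
        · nlinarith [mul_nonneg (show 0 ≤ 1 - (a' - s) by linarith) h]
        · nlinarith [mul_nonneg (sub_nonneg.2 hsa) (neg_nonneg.2 h)]
    _ = _ := by rw [Real.exp_add, Real.exp_log two_pos]

section

variable {n M : ℕ} {X : Type} [TopologicalSpace X] [ChartedSpace (Cm n) X]
  [IsManifold 𝓘(ℂ, Cm n) ω X]

/-- the logarithm of the quotient of the volume forms -/
def fK (G : D.FormM n X) (φ : Chart n X → Cm n → ℝ) (m : ℕ) (ρ : X → ℝ) (δ : ℝ) (dl : Fin M → ℝ)
    (r : Fin M → X → ℝ) (ε c : ℝ) (x : X) : ℝ :=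
  ricPot G φ x + (m : ℝ)⁻¹ * Real.log (ρ x + δ) - (∑ i, dl i * Real.log (r i x + ε)) + c

lemma smooth_fK {G : D.FormM n X} (hG : IsHermitian G) {φ : Chart n X → Cm n → ℝ}
    (hφ : IsCanonicalMetric φ) (m : ℕ) {ρ : X → ℝ} (hρ : SmoothFn (n := n) ρ)
    (hρ0 : ∀ x, 0 ≤ ρ x) {δ : ℝ} (hδ : 0 < δ) (dl : Fin M → ℝ) {r : Fin M → X → ℝ}
    (hr : ∀ i, SmoothFn (n := n) (r i)) (hr0 : ∀ i x, 0 ≤ r i x) {ε : ℝ} (hε : 0 < ε) (c : ℝ) :
    SmoothFn (n := n) (fK G φ m ρ δ dl r ε c) := by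
  refine sm_add (sm_sub (sm_add (smoothFn_ricPot hG hφ) (sm_const_mul _ (sm_log (sm_add hρ
    (smoothFn_const δ)) fun y => by have := hρ0 y; linarith)))
    (INT.SmoothFn.sum Finset.univ fun i _ => sm_const_mul (dl i) (sm_log (sm_add (hr i)
    (smoothFn_const ε)) fun y => by have := hr0 i y; linarith))) (smoothFn_const c)

lemma fK_eq {G g : D.FormM n X} (hG : IsHermitian G) {φ : Chart n X → Cm n → ℝ}
    (hφ : IsCanonicalMetric φ) {m : ℕ} {ρ : X → ℝ} {δ : ℝ} {dl : Fin M → ℝ}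
    {r : Fin M → X → ℝ} {ε c : ℝ}
    (hlog : ∀ e x, At e x → Real.log (g e (e x)).det.re = phiK φ m ρ δ dl r ε e (e x) + c)
    (e : Chart n X) (x : X) (hx : At e x) : Real.log (g e (e x)).det.re =
      Real.log (G e (e x)).det.re + fK G φ m ρ δ dl r ε c x := by
  rw [hlog e x hx]
  unfold fK phiK phiD
  rw [ricPot_eq hG hφ hx, hx.left_inv]
  ring

lemma detR_exp {G g : D.FormM n X} (hG : IsHermitian G) (hg : IsHermitian g) {f : X → ℝ}
    (hdet : ∀ e x, At e x → Real.log (g e (e x)).det.re = Real.log (G e (e x)).det.re + f x)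
    (x : X) : detR g G x = Real.exp (f x) := by
  have hx := at_chartAt (n := n) x
  have a1 := hdet _ x hx
  have a2 := hg.det_re_pos hx
  have a3 := hG.det_re_pos hx
  rw [detR_eq hg hG hx, ← Real.exp_log (div_pos a2 a3), Real.log_div a2.ne' a3.ne', a1]
  congr 1
  ring

variable [T2Space X] [CompactSpace X]

lemma exists_E0 {G : D.FormM n X} (hG : IsKahler G) {φ : Chart n X → Cm n → ℝ}
    (hφ : IsCanonicalMetric φ) {m : ℕ} (hm : 0 < m) {ρ : X → ℝ} (hρ : SmoothFn (n := n) ρ)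
    (hρ0 : ∀ x, 0 ≤ ρ x) {x₁ : X} (hx₁ : 0 < ρ x₁) {dl : Fin M → ℝ} (hdl : ∀ i, 0 ≤ dl i)
    {r : Fin M → X → ℝ} (hr : ∀ i, SmoothFn (n := n) (r i)) (hr0 : ∀ i x, 0 ≤ r i x)
    (hr1 : ∀ i x, r i x ≤ 1) : ∃ E0 : ℝ, 0 < E0 ∧ ∀ δ ε : ℝ, 0 < δ → 0 < ε → ε ≤ 1 →
      ∀ (U : X → ℝ) (c : ℝ), SmoothFn (n := n) U → IsKahler (addH G U) →
      (∀ e x, At e x → Real.log (addH G U e (e x)).det.re =
        Real.log (G e (e x)).det.re + fK G φ m ρ δ dl r ε c x) → Real.exp c ≤ E0 := by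
  haveI : Nonempty X := ⟨x₁⟩
  have hGH := hG.toIsHermitian
  have hm' : (0 : ℝ) < m := Nat.cast_pos.2 hm
  have hmi : (0 : ℝ) < (m : ℝ)⁻¹ := inv_pos.2 hm'
  have cρ : Continuous ρ := sm_continuous hρ
  have cF : Continuous (ricPot G φ) := sm_continuous (smoothFn_ricPot hGH hφ)
  set V : ℝ := J G (fun _ => 1) with hV
  have hV0 : 0 < V := J_pos hGH
  set f0 : X → ℝ := fun x => Real.exp (ricPot G φ x) * (ρ x) ^ ((m : ℝ)⁻¹) with hf0
  have cf0 : Continuous f0 := (Real.continuous_exp.comp cF).mul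
    (cρ.rpow_const fun x => Or.inr hmi.le)
  set I0 : ℝ := J G f0 with hI0
  have hI0' : 0 < I0 := J_pos_of hGH cf0 (fun x => mul_nonneg (Real.exp_pos _).le
    (Real.rpow_nonneg (hρ0 x) _)) (x := x₁) (mul_pos (Real.exp_pos _) (Real.rpow_pos_of_pos hx₁ _))
  set s : ℝ := ∑ i, dl i with hs
  set w : ℝ := Real.exp (-(s * Real.log 2)) with hw
  have hw0 : 0 < w := Real.exp_pos _
  refine ⟨V / (w * I0), by positivity, fun δ ε hδ hε hε1 U c hU hg hdet => ?_⟩
  have hgH := hg.toIsHermitian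
  have hvol : J (addH G U) (fun _ => 1) = V := by
    rw [hV, J_one, J_one]
    exact INT.intX_det_add_cHess (INT.IsKahler.isClosedForm hG) hU
  have hfs := smooth_fK hGH hφ m hρ hρ0 hδ dl hr hr0 hε c
  have h1 : Real.exp c * (w * I0) ≤ V := by
    rw [← hvol, ← J_detR hgH hGH, hI0, ← J_const_mul, ← J_const_mul]
    refine J_mono hGH (continuous_const.mul (continuous_const.mul cf0)) (continuous_const.mul
      (sm_continuous (smoothFn_detR hgH hGH))) fun x => ?_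
    rw [detR_exp hGH hgH hdet x, one_mul]
    have hr : 0 < ρ x + δ := by have := hρ0 x; linarith
    have h2 : (ρ x) ^ ((m : ℝ)⁻¹) ≤ Real.exp ((m : ℝ)⁻¹ * Real.log (ρ x + δ)) := by
      have h3 : (ρ x + δ) ^ ((m : ℝ)⁻¹) = Real.exp ((m : ℝ)⁻¹ * Real.log (ρ x + δ)) := by
        rw [Real.rpow_def_of_pos hr, mul_comm]
      rw [← h3]
      exact Real.rpow_le_rpow (hρ0 x) (by linarith) hmi.le
    have h4 : (∑ i, dl i * Real.log (r i x + ε)) ≤ s * Real.log 2 := by
      rw [hs, Finset.sum_mul]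
      refine Finset.sum_le_sum fun i _ => mul_le_mul_of_nonneg_left ?_ (hdl i)
      exact Real.log_le_log (by have := hr0 i x; linarith) (by have := hr1 i x; linarith)
    have h5 : Real.exp (fK G φ m ρ δ dl r ε c x) = Real.exp c *
        (Real.exp (-(∑ i, dl i * Real.log (r i x + ε))) * (Real.exp (ricPot G φ x) *
          Real.exp ((m : ℝ)⁻¹ * Real.log (ρ x + δ)))) := by
      rw [← Real.exp_add, ← Real.exp_add, ← Real.exp_add]
      unfold fK
      congr 1
      ring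
    rw [h5]
    have h6 : w ≤ Real.exp (-(∑ i, dl i * Real.log (r i x + ε))) :=
      Real.exp_le_exp.2 (neg_le_neg h4)
    have h7 : f0 x ≤ Real.exp (ricPot G φ x) * Real.exp ((m : ℝ)⁻¹ * Real.log (ρ x + δ)) :=
      mul_le_mul_of_nonneg_left h2 (Real.exp_pos _).le
    have h8 : 0 ≤ f0 x := mul_nonneg (Real.exp_pos _).le (Real.rpow_nonneg (hρ0 x) _)
    exact mul_le_mul_of_nonneg_left (mul_le_mul h6 h7 h8 (Real.exp_pos _).le)
      (Real.exp_pos c).le
  rw [le_div_iff₀ (by positivity)]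
  exact h1

lemma exists_B {G : D.FormM n X} (hG : IsKahler G) {φ : Chart n X → Cm n → ℝ}
    (hφ : IsCanonicalMetric φ) (m : ℕ) {ρ : X → ℝ} (hρ : SmoothFn (n := n) ρ)
    (hρ0 : ∀ x, 0 ≤ ρ x) {dl : Fin M → ℝ} (hdl : ∀ i, 0 ≤ dl i)
    {r : Fin M → X → ℝ} (hr : ∀ i, SmoothFn (n := n) (r i)) (hr0 : ∀ i x, 0 ≤ r i x)
    (hr1 : ∀ i x, r i x ≤ 1) {a a' : ℝ} (ha : 1 < a) (ha' : a' < 1) (haa : ∀ i, a * dl i ≤ a')
    {K : ℝ} (hK : ∀ ε : ℝ, 0 < ε → ε ≤ 1 → J G (fun x => ∏ i, (r i x + ε) ^ (-a')) ≤ K)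
    {E0 : ℝ} (hE0 : 0 < E0) : ∃ B : ℝ, ∀ δ ε : ℝ, 0 < δ → δ ≤ 1 → 0 < ε → ε ≤ 1 →
      ∀ c : ℝ, Real.exp c ≤ E0 →
      J G (fun x => Real.exp (a * fK G φ m ρ δ dl r ε c x)) ≤ B := by
  rcases isEmpty_or_nonempty X with hX | hX
  · refine ⟨0, fun δ ε _ _ _ _ c _ => le_of_eq ?_⟩
    unfold H882.J
    rw [INT.intX_congr (D' := fun (e : Chart n X) (z : Cm n) => (0 : ℝ))
      (fun e x _ => (hX.false x).elim), INT.intX_zero]
  have hGH := hG.toIsHermitian
  have cρ : Continuous ρ := sm_continuous hρ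
  have cF : Continuous (ricPot G φ) := sm_continuous (smoothFn_ricPot hGH hφ)
  obtain ⟨xm, -, hxm⟩ := isCompact_univ.exists_isMaxOn univ_nonempty cρ.continuousOn
  obtain ⟨xF, -, hxF⟩ := isCompact_univ.exists_isMaxOn univ_nonempty cF.continuousOn
  have hρR : ∀ x, ρ x ≤ ρ xm := fun x => hxm (mem_univ x)
  have hFR : ∀ x, ricPot G φ x ≤ ricPot G φ xF := fun x => hxF (mem_univ x)
  have hmi : (0 : ℝ) ≤ (m : ℝ)⁻¹ := inv_nonneg.2 (Nat.cast_nonneg m)
  set P : ℝ := Real.exp (a * (ricPot G φ xF + (m : ℝ)⁻¹ * Real.log (ρ xm + 1) + Real.log E0))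
    with hP
  refine ⟨P * (2 ^ M * K), fun δ ε hδ hδ1 hε hε1 c hc => ?_⟩
  have hrε : ∀ i x, 0 < r i x + ε := fun i x => by have := hr0 i x; linarith
  have cprod : Continuous fun x => ∏ i, (r i x + ε) ^ (-a') :=
    continuous_finsetProd _ fun i _ => ((sm_continuous (hr i)).add continuous_const).rpow_const
      fun x => Or.inl (hrε i x).ne'
  have h1 : J G (fun x => Real.exp (a * fK G φ m ρ δ dl r ε c x)) ≤
      J G (fun x => P * (2 ^ M * ∏ i, (r i x + ε) ^ (-a'))) := by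
    refine J_mono hGH (Real.continuous_exp.comp (continuous_const.mul (sm_continuous
      (smooth_fK hGH hφ m hρ hρ0 hδ dl hr hr0 hε c)))) (continuous_const.mul
      (continuous_const.mul cprod)) fun x => ?_
    have h2 : Real.exp (a * fK G φ m ρ δ dl r ε c x) =
        Real.exp (a * (ricPot G φ x + (m : ℝ)⁻¹ * Real.log (ρ x + δ) + c)) *
          ∏ i, Real.exp (-(a * dl i * Real.log (r i x + ε))) := by
      rw [← Real.exp_sum, ← Real.exp_add]
      unfold fK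
      congr 1
      rw [Finset.sum_neg_distrib]
      have h3 : (∑ i, a * dl i * Real.log (r i x + ε)) =
          a * ∑ i, dl i * Real.log (r i x + ε) := by
        rw [Finset.mul_sum]
        exact Finset.sum_congr rfl fun i _ => by ring
      rw [h3]
      ring
    rw [h2]
    have h4 : Real.exp (a * (ricPot G φ x + (m : ℝ)⁻¹ * Real.log (ρ x + δ) + c)) ≤ P := by
      refine Real.exp_le_exp.2 (mul_le_mul_of_nonneg_left ?_ (by linarith))
      have h5 : c ≤ Real.log E0 := by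
        rw [← Real.log_exp c]; exact Real.log_le_log (Real.exp_pos c) hc
      have h6 : (m : ℝ)⁻¹ * Real.log (ρ x + δ) ≤ (m : ℝ)⁻¹ * Real.log (ρ xm + 1) := by
        refine mul_le_mul_of_nonneg_left (Real.log_le_log ?_ ?_) hmi
        · have := hρ0 x; linarith
        · have := hρR x; linarith
      have h7 := hFR x
      linarith
    have h5 : ∏ i, Real.exp (-(a * dl i * Real.log (r i x + ε))) ≤
        2 ^ M * ∏ i, (r i x + ε) ^ (-a') := by
      have h6 : (2 : ℝ) ^ M * ∏ i, (r i x + ε) ^ (-a') = ∏ i, (2 * (r i x + ε) ^ (-a')) := by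
        rw [Finset.prod_mul_distrib, Finset.prod_const, Finset.card_univ, Fintype.card_fin]
      rw [h6]
      refine Finset.prod_le_prod (fun i _ => (Real.exp_pos _).le) fun i _ => ?_
      exact exp_le_rpow (hrε i x) (by have := hr1 i x; linarith)
        (mul_nonneg (by linarith) (hdl i)) (haa i) ha'
    exact mul_le_mul h4 h5 (Finset.prod_nonneg fun i _ => (Real.exp_pos _).le) (Real.exp_pos _).le
  refine h1.trans ?_
  rw [J_const_mul, J_const_mul]
  exact mul_le_mul_of_nonneg_left (mul_le_mul_of_nonneg_left (hK ε hε hε1) (by positivity))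
    (Real.exp_pos _).le

end

end Vale.Agent.P281.H283.KD
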